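import Mathlib

namespace Vale.Agent.Results.P047.ConicalJunta

open Finset Real

/-- The sign of a bit. -/
def sg (b : Bool) : ℝ := if b then 1 else -1

/-- The value at a bit `b` of the indicator of one coordinate of a partial assignment. -/
def okBit (o : Option Bool) (b : Bool) : ℝ :=
  match o with
  | none => 1
  | some c => if b = c then 1 else 0

/-- Indicator of the subcube of all points agreeing with the partial assignment `r`. -/
def ind {n : ℕ} (r : Fin n → Option Bool) (x : Fin n → Bool) : ℝ := ∏ i, okBit (r i) (x i)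

/-- Number of coordinates fixed by the partial assignment (codimension of the subcube). -/
def codim {n : ℕ} (r : Fin n → Option Bool) : ℕ := (univ.filter fun i => r i ≠ none).card

/-- Uniform mean of a function on the discrete cube. -/
noncomputable def mean {n : ℕ} (f : (Fin n → Bool) → ℝ) : ℝ := (∑ x, f x) / 2 ^ n

/-- The linear Fourier coefficient of `f` at `{i}`. -/
noncomputable def linCoef {n : ℕ} (f : (Fin n → Bool) → ℝ) (i : Fin n) : ℝ :=
  mean fun x => f x * sg (x i)

/-- The fixed sign at a coordinate (zero if the coordinate is free). -/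
def so (o : Option Bool) : ℝ :=
  match o with
  | none => 0
  | some c => sg c

lemma sum_prod_bool {n : ℕ} (u : Fin n → Bool → ℝ) :
    ∑ x : Fin n → Bool, ∏ i, u i (x i) = ∏ i, (u i true + u i false) := by
  have h := Finset.prod_univ_sum (fun _ : Fin n => (univ : Finset Bool)) (fun i b => u i b)
  rw [Fintype.piFinset_univ] at h
  rw [← h]
  apply Finset.prod_congr rfl
  intro i _
  simp

lemma codim_prod {n : ℕ} (r : Fin n → Option Bool) (c : ℝ) :
    (∏ i, (if r i = none then (1 : ℝ) else c)) = c ^ codim r := by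
  rw [Finset.prod_ite]
  simp only [prod_const_one, one_mul, prod_const]
  rfl

/-- mean of a subcube indicator against a product weight -/
lemma sum_ind_weight {n : ℕ} (r : Fin n → Option Bool) (w : Fin n → Bool → ℝ) :
    ∑ x, ind r x * ∏ i, w i (x i) =
      ∏ i, (okBit (r i) true * w i true + okBit (r i) false * w i false) := by
  rw [← sum_prod_bool (fun i b => okBit (r i) b * w i b)]
  apply Finset.sum_congr rfl
  intro x _
  rw [ind, ← Finset.prod_mul_distrib]

lemma ind_mean {n : ℕ} (r : Fin n → Option Bool) :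
    mean (ind r) = (1 / 2) ^ codim r := by
  unfold mean
  have h := sum_ind_weight r (fun _ _ => 1)
  simp only [prod_const_one, mul_one] at h
  rw [h, ← codim_prod r (1 / 2)]
  have h2 : ((2 : ℝ) ^ n) = ∏ _i : Fin n, (2 : ℝ) := by simp
  rw [h2, ← Finset.prod_div_distrib]
  apply Finset.prod_congr rfl
  intro i _
  rcases hri : r i with _ | c
  · simp [okBit]
  · cases c <;> simp [okBit]

lemma ind_lin {n : ℕ} (r : Fin n → Option Bool) (i : Fin n) :
    mean (fun x => ind r x * sg (x i)) = (1 / 2) ^ codim r * so (r i) := by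
  unfold mean
  have h := sum_ind_weight r (fun j b => if j = i then sg b else 1)
  have h0 : ∀ x : Fin n → Bool, (∏ j, (fun j b => if j = i then sg b else (1 : ℝ)) j (x j)) = sg (x i) := by
    intro x
    simp only [Finset.prod_ite_eq', Finset.mem_univ, if_true]
  simp only [h0] at h
  rw [h, ← codim_prod r (1 / 2)]
  have h2 : ((2 : ℝ) ^ n) = ∏ _i : Fin n, (2 : ℝ) := by simp
  rw [h2, ← Finset.prod_div_distrib]
  have h3 : so (r i) = ∏ j, (if j = i then so (r j) else (1 : ℝ)) := by
    simp only [Finset.prod_ite_eq', Finset.mem_univ, if_true]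
  rw [h3, ← Finset.prod_mul_distrib]
  apply Finset.prod_congr rfl
  intro j _
  by_cases hji : j = i
  · rcases hri : r j with _ | c
    · simp [okBit, if_pos hji, so, sg]
    · cases c
      · simp [okBit, so, sg, if_pos hji]; norm_num
      · simp [okBit, so, sg, if_pos hji]
  · rcases hri : r j with _ | c
    · simp [okBit, if_neg hji]
    · cases c <;> simp [okBit, if_neg hji]

/-- the exponential moment of a subcube indicator -/
lemma exp_moment {n : ℕ} (r : Fin n → Option Bool) (a : Fin n → ℝ) (ha : ∀ i, (a i) ^ 2 ≤ 1) (t : ℝ) :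
    (1 / 2) ^ codim r * exp (t * (∑ i, a i * so (r i)) - codim r * (t ^ 2 / 2)) *
      ∏ i, (exp (t * a i) + exp (-(t * a i)))
    ≤ ∑ x, ind r x * ∏ i, exp (t * a i * sg (x i)) := by
  rw [sum_ind_weight r (fun i b => exp (t * a i * sg b))]
  have e1 : exp (t * (∑ i, a i * so (r i)) - codim r * (t ^ 2 / 2)) =
      ∏ i, (if r i = none then (1 : ℝ) else exp (t * (a i * so (r i)) - t ^ 2 / 2)) := by
    have : (codim r : ℝ) * (t ^ 2 / 2) = ∑ i, (if r i = none then (0 : ℝ) else t ^ 2 / 2) := by
      rw [Finset.sum_ite]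
      simp only [sum_const_zero, zero_add, sum_const, nsmul_eq_mul]
      rfl
    rw [this, Finset.mul_sum, ← Finset.sum_sub_distrib, Real.exp_sum]
    apply Finset.prod_congr rfl
    intro i _
    by_cases h : r i = none
    · simp [h, so]
    · simp [h]
  rw [e1, ← codim_prod r (1 / 2), ← Finset.prod_mul_distrib, ← Finset.prod_mul_distrib]
  apply Finset.prod_le_prod
  · intro i _
    have : 0 < exp (t * a i) + exp (-(t * a i)) := by positivity
    by_cases h : r i = none
    · simp only [h, if_true]; positivity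
    · simp only [h, if_false]; positivity
  · intro i _
    have hc : exp (t * a i) + exp (-(t * a i)) ≤ 2 * exp (t ^ 2 / 2) := by
      have h1 := Real.cosh_le_exp_half_sq (t * a i)
      rw [Real.cosh_eq] at h1
      have h2 : exp ((t * a i) ^ 2 / 2) ≤ exp (t ^ 2 / 2) := by
        apply Real.exp_le_exp.mpr
        have := ha i
        nlinarith [sq_nonneg t, mul_nonneg (sq_nonneg t) (sub_nonneg.mpr this)]
      linarith
    rcases hri : r i with _ | c
    · simp [okBit, sg]
    · have hs : ∀ s : ℝ, exp (t * (a i * s) - t ^ 2 / 2) = exp (t * a i * s) * exp (-(t ^ 2 / 2)) := by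
        intro s
        rw [← Real.exp_add]
        congr 1
        ring
      have hq : exp (-(t ^ 2 / 2)) * (exp (t * a i) + exp (-(t * a i))) ≤ 2 := by
        calc exp (-(t ^ 2 / 2)) * (exp (t * a i) + exp (-(t * a i)))
            ≤ exp (-(t ^ 2 / 2)) * (2 * exp (t ^ 2 / 2)) :=
              mul_le_mul_of_nonneg_left hc (exp_pos _).le
          _ = 2 * (exp (-(t ^ 2 / 2)) * exp (t ^ 2 / 2)) := by ring
          _ = 2 := by rw [← Real.exp_add]; simp
      have hgoal : ∀ s : ℝ, (1 / 2 : ℝ) * exp (t * (a i * s) - t ^ 2 / 2) *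
          (exp (t * a i) + exp (-(t * a i))) ≤ exp (t * a i * s) := by
        intro s
        rw [hs s]
        have hp := exp_pos (t * a i * s)
        nlinarith [mul_le_mul_of_nonneg_left hq hp.le]
      cases c
      · simpa [okBit, so, sg] using hgoal (-1)
      · simpa [okBit, so, sg] using hgoal 1

/-- the main inequality for a fixed weight vector and a fixed parameter -/
lemma main_t {n : ℕ} {ι : Type} [Fintype ι] (r : ι → Fin n → Option Bool) (lam : ι → ℝ)
    (g : (Fin n → Bool) → ℝ) (hlam : ∀ j, 0 ≤ lam j) (hg : ∀ x, g x ≤ 1)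
    (hrep : ∀ x, g x = ∑ j, lam j * ind (r j) x) (a : Fin n → ℝ) (ha : ∀ i, (a i) ^ 2 ≤ 1) (t : ℝ) :
    ∑ j, lam j * (1 / 2) ^ codim (r j) *
      exp (t * (∑ i, a i * so (r j i)) - codim (r j) * (t ^ 2 / 2)) ≤ 1 := by
  have hZ : 0 < ∏ i, (exp (t * a i) + exp (-(t * a i))) := by
    apply Finset.prod_pos
    intro i _
    positivity
  have h1 : ∑ x, g x * ∏ i, exp (t * a i * sg (x i)) ≤ ∏ i, (exp (t * a i) + exp (-(t * a i))) := by
    have h2 : ∑ x : Fin n → Bool, ∏ i, exp (t * a i * sg (x i)) =
        ∏ i, (exp (t * a i) + exp (-(t * a i))) := by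
      rw [sum_prod_bool (fun i b => exp (t * a i * sg b))]
      apply Finset.prod_congr rfl
      intro i _
      simp [sg]
    rw [← h2]
    apply Finset.sum_le_sum
    intro x _
    have hp : 0 ≤ ∏ i, exp (t * a i * sg (x i)) := Finset.prod_nonneg fun i _ => (exp_pos _).le
    nlinarith [hg x]
  have h3 : (∑ j, lam j * (1 / 2) ^ codim (r j) *
      exp (t * (∑ i, a i * so (r j i)) - codim (r j) * (t ^ 2 / 2))) *
      ∏ i, (exp (t * a i) + exp (-(t * a i))) ≤ ∑ x, g x * ∏ i, exp (t * a i * sg (x i)) := by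
    have h4 : ∑ x, g x * ∏ i, exp (t * a i * sg (x i)) =
        ∑ j, lam j * ∑ x, ind (r j) x * ∏ i, exp (t * a i * sg (x i)) := by
      simp_rw [hrep, Finset.sum_mul, Finset.mul_sum]
      rw [Finset.sum_comm]
      apply Finset.sum_congr rfl
      intro j _
      apply Finset.sum_congr rfl
      intro x _
      ring
    rw [h4, Finset.sum_mul]
    apply Finset.sum_le_sum
    intro j _
    have := mul_le_mul_of_nonneg_left (exp_moment (r j) a ha t) (hlam j)
    calc _ = lam j * ((1 / 2) ^ codim (r j) * exp (t * (∑ i, a i * so (r j i)) - codim (r j) * (t ^ 2 / 2)) *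
      ∏ i, (exp (t * a i) + exp (-(t * a i)))) := by ring
      _ ≤ _ := this
  have h5 := h3.trans h1
  exact (le_of_mul_le_mul_right (by linarith : _ ≤ 1 * ∏ i, (exp (t * a i) + exp (-(t * a i)))) hZ)

lemma quad_opt {S W B : ℝ} (hW : 0 ≤ W) (h : ∀ t : ℝ, t * S - W * (t ^ 2 / 2) ≤ B) :
    S ^ 2 ≤ 2 * W * B := by
  have hB : 0 ≤ B := by simpa using h 0
  rcases hW.eq_or_lt with h0 | h0
  · have hS : S = 0 := by
      by_contra hS
      have := h ((B + 1) / S)
      rw [← h0] at this
      rw [div_mul_cancel₀ _ hS] at this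
      linarith
    rw [hS, ← h0]; simp
  · have := h (S / W)
    have e : S / W * S - W * ((S / W) ^ 2 / 2) = S ^ 2 / (2 * W) := by
      field_simp; ring
    rw [e, div_le_iff₀ (by positivity)] at this
    linarith

/-- quadratic bound for a weight vector -/
lemma main_a {n : ℕ} {ι : Type} [Fintype ι] (r : ι → Fin n → Option Bool) (lam : ι → ℝ)
    (g : (Fin n → Bool) → ℝ) (hlam : ∀ j, 0 ≤ lam j) (hg : ∀ x, g x ≤ 1)
    (hrep : ∀ x, g x = ∑ j, lam j * ind (r j) x) (a : Fin n → ℝ) (ha : ∀ i, (a i) ^ 2 ≤ 1) :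
    (∑ i, a i * linCoef g i) ^ 2 ≤
      2 * (∑ j, lam j * codim (r j) * (1 / 2) ^ codim (r j)) * (mean g * log (1 / mean g)) := by
  have hm : mean g = ∑ j, lam j * (1 / 2) ^ codim (r j) := by
    have : mean g = ∑ j, lam j * mean (ind (r j)) := by
      unfold mean
      simp_rw [hrep]
      rw [Finset.sum_comm, Finset.sum_div]
      apply Finset.sum_congr rfl
      intro j _
      rw [← Finset.mul_sum, mul_div_assoc]
    rw [this]
    apply Finset.sum_congr rfl
    intro j _
    rw [ind_mean]
  have hS : ∑ i, a i * linCoef g i =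
      ∑ j, lam j * (1 / 2) ^ codim (r j) * (∑ i, a i * so (r j i)) := by
    have : ∀ i, linCoef g i = ∑ j, lam j * ((1 / 2) ^ codim (r j) * so (r j i)) := by
      intro i
      unfold linCoef
      have : mean (fun x => g x * sg (x i)) = ∑ j, lam j * mean (fun x => ind (r j) x * sg (x i)) := by
        unfold mean
        simp_rw [hrep, Finset.sum_mul]
        rw [Finset.sum_comm, Finset.sum_div]
        apply Finset.sum_congr rfl
        intro j _
        rw [← mul_div_assoc, Finset.mul_sum]
        congr 1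
        apply Finset.sum_congr rfl
        intro x _
        ring
      rw [this]
      apply Finset.sum_congr rfl
      intro j _
      rw [ind_lin]
    simp_rw [this, Finset.mul_sum]
    rw [Finset.sum_comm]
    apply Finset.sum_congr rfl
    intro j _
    apply Finset.sum_congr rfl
    intro i _
    ring
  set m := mean g with hmdef
  set S := ∑ i, a i * linCoef g i with hSdef
  set W := ∑ j, lam j * codim (r j) * (1 / 2) ^ codim (r j) with hWdef
  have hm0 : 0 ≤ m := by
    rw [hm]; apply Finset.sum_nonneg; intro j _; have := hlam j; positivity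
  have hW0 : 0 ≤ W := by
    apply Finset.sum_nonneg; intro j _; have := hlam j; positivity
  rcases hm0.eq_or_lt with h0 | h0
  · -- all weights vanish
    have hz : ∀ j, lam j = 0 := by
      intro j
      have h1 : ∀ j ∈ (univ : Finset ι), 0 ≤ lam j * (1 / 2) ^ codim (r j) := by
        intro j _; have := hlam j; positivity
      have h2 := (Finset.sum_eq_zero_iff_of_nonneg h1).mp (hm.symm.trans h0.symm) j (mem_univ j)
      have h3 : (0 : ℝ) < (1 / 2) ^ codim (r j) := by positivity
      rcases mul_eq_zero.mp h2 with h | h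
      · exact h
      · exact absurd h h3.ne'
    have : S = 0 := by rw [hS]; simp [hz]
    rw [this, ← h0]; simp
  · apply quad_opt hW0
    intro t
    have hmain := main_t r lam g hlam hg hrep a ha t
    set A := (t * S - W * (t ^ 2 / 2)) / m with hA
    have hex : ∀ j, lam j * (1 / 2) ^ codim (r j) * (exp A *
        (1 + (t * (∑ i, a i * so (r j i)) - codim (r j) * (t ^ 2 / 2) - A))) ≤
        lam j * (1 / 2) ^ codim (r j) *
          exp (t * (∑ i, a i * so (r j i)) - codim (r j) * (t ^ 2 / 2)) := by
      intro j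
      apply mul_le_mul_of_nonneg_left
      · have h1 := Real.add_one_le_exp (t * (∑ i, a i * so (r j i)) - codim (r j) * (t ^ 2 / 2) - A)
        calc exp A * (1 + (t * (∑ i, a i * so (r j i)) - codim (r j) * (t ^ 2 / 2) - A))
            ≤ exp A * exp (t * (∑ i, a i * so (r j i)) - codim (r j) * (t ^ 2 / 2) - A) := by
              apply mul_le_mul_of_nonneg_left _ (exp_pos _).le
              linarith
          _ = _ := by rw [← Real.exp_add]; congr 1; ring
      · have := hlam j; positivity
    have hsum := (Finset.sum_le_sum fun j (_ : j ∈ univ) => hex j).trans hmain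
    have hval : ∑ j, lam j * (1 / 2) ^ codim (r j) * (exp A *
        (1 + (t * (∑ i, a i * so (r j i)) - codim (r j) * (t ^ 2 / 2) - A))) = exp A * m := by
      have e1 : ∑ j, lam j * (1 / 2) ^ codim (r j) * (exp A *
        (1 + (t * (∑ i, a i * so (r j i)) - codim (r j) * (t ^ 2 / 2) - A))) =
        exp A * ((1 - A) * (∑ j, lam j * (1 / 2) ^ codim (r j)) +
          t * (∑ j, lam j * (1 / 2) ^ codim (r j) * (∑ i, a i * so (r j i))) -
          (t ^ 2 / 2) * (∑ j, lam j * codim (r j) * (1 / 2) ^ codim (r j))) := by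
        rw [Finset.mul_sum, Finset.mul_sum, Finset.mul_sum, ← Finset.sum_add_distrib,
          ← Finset.sum_sub_distrib, Finset.mul_sum]
        apply Finset.sum_congr rfl
        intro j _
        ring
      rw [e1, ← hm, ← hS, ← hWdef]
      have : A * m = t * S - W * (t ^ 2 / 2) := by rw [hA, div_mul_cancel₀ _ h0.ne']
      have h2 : (1 - A) * m + t * S - t ^ 2 / 2 * W = m := by nlinarith
      rw [h2]
    rw [hval] at hsum
    have hlog : A + log m ≤ 0 := by
      have := Real.log_le_log (by positivity) hsum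
      rw [Real.log_mul (exp_pos _).ne' h0.ne', Real.log_exp, Real.log_one] at this
      exact this
    rw [one_div, Real.log_inv]
    have : A * m = t * S - W * (t ^ 2 / 2) := by rw [hA, div_mul_cancel₀ _ h0.ne']
    nlinarith

lemma sq_log_bound {m : ℝ} (h0 : 0 ≤ m) : m ^ 2 * log (1 / m) ≤ 1 / (2 * exp 1) := by
  rcases h0.eq_or_lt with h | h
  · rw [← h]; simp; positivity
  · set u := log (1 / m) with hu
    have hm : m = exp (-u) := by
      rw [hu, one_div, Real.log_inv, neg_neg, Real.exp_log h]
    rw [hm, ← Real.exp_nat_mul]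
    have h1 := Real.add_one_le_exp (2 * u - 1)
    have h2 : exp (((2 : ℕ) : ℝ) * -u) * exp (2 * u - 1) = 1 / exp 1 := by
      rw [← Real.exp_add, one_div, ← Real.exp_neg]
      congr 1
      push_cast
      ring
    have h3 : exp (((2 : ℕ) : ℝ) * -u) * (2 * u) ≤ 1 / exp 1 := by
      rw [← h2]
      apply mul_le_mul_of_nonneg_left _ (exp_pos _).le
      linarith
    have h4 : 1 / (2 * exp 1) = (1 / exp 1) / 2 := by field_simp
    rw [h4]
    linarith

/-- If `(1+f)/2` is a nonnegative combination of indicators of subcubes of codimension at most `k`,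
`|f| ≤ 1`, then the linear Fourier coefficients satisfy `∑ |f^(i)| ≤ (2/√e) √k`, and more precisely
`(∑ |f^(i)|)^2 ≤ 8 W m log (1/m)` with `m` the mean of `(1+f)/2` and `W` its average codimension mass. -/
theorem result {n k : ℕ} {ι : Type} [Fintype ι] (r : ι → Fin n → Option Bool) (lam : ι → ℝ)
    (f : (Fin n → Bool) → ℝ) (hlam : ∀ j, 0 ≤ lam j) (hk : ∀ j, codim (r j) ≤ k)
    (hf : ∀ x, |f x| ≤ 1) (hrep : ∀ x, (1 + f x) / 2 = ∑ j, lam j * ind (r j) x) :
    (∑ i, |linCoef f i|) ^ 2 ≤
        8 * (∑ j, lam j * codim (r j) * (1 / 2) ^ codim (r j)) *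
          (((1 + mean f) / 2) * log (1 / ((1 + mean f) / 2))) ∧
      ∑ i, |linCoef f i| ≤ 2 * ((1 + mean f) / 2) * √(2 * k * log (1 / ((1 + mean f) / 2))) ∧
      ∑ i, |linCoef f i| ≤ 2 / √(exp 1) * √k := by
  set g : (Fin n → Bool) → ℝ := fun x => (1 + f x) / 2 with hgdef
  have hg1 : ∀ x, g x ≤ 1 := by
    intro x
    have := (abs_le.mp (hf x)).2
    simp only [hgdef]
    linarith
  have hg0 : ∀ x, 0 ≤ g x := by
    intro x
    have := (abs_le.mp (hf x)).1
    simp only [hgdef]
    linarith
  have hcard : ∑ _x : Fin n → Bool, (1 : ℝ) = 2 ^ n := by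
    simp
  have h2n : (0 : ℝ) < 2 ^ n := by positivity
  have hmg : mean g = (1 + mean f) / 2 := by
    unfold mean
    simp only [hgdef]
    rw [← Finset.sum_div, Finset.sum_add_distrib, hcard]
    field_simp
  have hlin : ∀ i, linCoef f i = 2 * linCoef g i := by
    intro i
    have hz : ∑ x : Fin n → Bool, sg (x i) = 0 := by
      have h := sum_prod_bool (fun j b => if j = i then sg b else (1 : ℝ))
      have h0 : ∀ x : Fin n → Bool, (∏ j, (if j = i then sg (x j) else (1 : ℝ))) = sg (x i) := by
        intro x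
        simp only [Finset.prod_ite_eq', Finset.mem_univ, if_true]
      simp only [h0] at h
      rw [h]
      apply Finset.prod_eq_zero (mem_univ i)
      simp [sg]
    unfold linCoef mean
    have : ∑ x, f x * sg (x i) = 2 * ∑ x, g x * sg (x i) := by
      have h1 : ∑ x, f x * sg (x i) = 2 * ∑ x, g x * sg (x i) - ∑ x : Fin n → Bool, sg (x i) := by
        rw [Finset.mul_sum, ← Finset.sum_sub_distrib]
        apply Finset.sum_congr rfl
        intro x _
        simp only [hgdef]
        ring
      rw [h1, hz, sub_zero]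
    rw [this, mul_div_assoc]
  set a : Fin n → ℝ := fun i => if 0 ≤ linCoef g i then 1 else -1 with hadef
  have ha : ∀ i, (a i) ^ 2 ≤ 1 := by
    intro i
    simp only [hadef]
    split_ifs <;> norm_num
  have habs : ∑ i, |linCoef f i| = 2 * ∑ i, a i * linCoef g i := by
    rw [Finset.mul_sum]
    apply Finset.sum_congr rfl
    intro i _
    rw [hlin i]
    simp only [hadef]
    split_ifs with h
    · rw [abs_of_nonneg (by linarith)]; ring
    · rw [abs_of_neg (by linarith [not_le.mp h])]; ring
  have hmain := main_a r lam g hlam hg1 hrep a ha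
  rw [hmg] at hmain
  set m := (1 + mean f) / 2 with hm
  set W := ∑ j, lam j * codim (r j) * (1 / 2) ^ codim (r j) with hW
  have hm0 : 0 ≤ m := by
    rw [← hmg]
    unfold mean
    apply div_nonneg (Finset.sum_nonneg fun x _ => hg0 x) h2n.le
  have hm1 : m ≤ 1 := by
    rw [← hmg]
    unfold mean
    rw [div_le_one h2n, ← hcard]
    exact Finset.sum_le_sum fun x _ => hg1 x
  have hlog0 : 0 ≤ log (1 / m) := by
    rw [one_div, Real.log_inv]
    have := Real.log_nonpos hm0 hm1
    linarith
  have hmean : m = ∑ j, lam j * (1 / 2) ^ codim (r j) := by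
    rw [← hmg]
    have : mean g = ∑ j, lam j * mean (ind (r j)) := by
      unfold mean
      have hr : ∀ x, g x = ∑ j, lam j * ind (r j) x := hrep
      simp_rw [hr]
      rw [Finset.sum_comm, Finset.sum_div]
      apply Finset.sum_congr rfl
      intro j _
      rw [← Finset.mul_sum, mul_div_assoc]
    rw [this]
    apply Finset.sum_congr rfl
    intro j _
    rw [ind_mean]
  have hWk : W ≤ k * m := by
    rw [hmean, hW, Finset.mul_sum]
    apply Finset.sum_le_sum
    intro j _
    have h1 : (codim (r j) : ℝ) ≤ k := by exact_mod_cast hk j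
    have h2 : 0 ≤ lam j * (1 / 2 : ℝ) ^ codim (r j) := by have := hlam j; positivity
    nlinarith
  have hT0 : 0 ≤ ∑ i, |linCoef f i| := Finset.sum_nonneg fun i _ => abs_nonneg _
  have hk0 : (0 : ℝ) ≤ k := Nat.cast_nonneg k
  have hA : (∑ i, |linCoef f i|) ^ 2 ≤ 8 * W * (m * log (1 / m)) := by
    rw [habs]
    nlinarith
  have hml : 0 ≤ m * log (1 / m) := mul_nonneg hm0 hlog0
  have hB : (∑ i, |linCoef f i|) ^ 2 ≤ 4 * (m ^ 2 * (2 * k * log (1 / m))) := by
    calc (∑ i, |linCoef f i|) ^ 2 ≤ 8 * W * (m * log (1 / m)) := hA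
      _ ≤ 8 * (k * m) * (m * log (1 / m)) := by
        apply mul_le_mul_of_nonneg_right _ hml
        linarith
      _ = _ := by ring
  refine ⟨hA, ?_, ?_⟩
  · apply le_of_sq_le_sq _ (by positivity)
    calc (∑ i, |linCoef f i|) ^ 2 ≤ 4 * (m ^ 2 * (2 * k * log (1 / m))) := hB
      _ = (2 * m * √(2 * k * log (1 / m))) ^ 2 := by
        rw [mul_pow, Real.sq_sqrt (by positivity)]
        ring
  · apply le_of_sq_le_sq _ (by positivity)
    have h5 := sq_log_bound hm0
    calc (∑ i, |linCoef f i|) ^ 2 ≤ 4 * (m ^ 2 * (2 * k * log (1 / m))) := hB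
      _ = 8 * k * (m ^ 2 * log (1 / m)) := by ring
      _ ≤ 8 * k * (1 / (2 * exp 1)) := mul_le_mul_of_nonneg_left h5 (by positivity)
      _ = (2 / √(exp 1) * √k) ^ 2 := by
        rw [mul_pow, div_pow, Real.sq_sqrt (exp_pos 1).le, Real.sq_sqrt hk0]
        field_simp
        ring

end Vale.Agent.Results.P047.ConicalJunta
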